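import Mathlib
import Vale.Agent.P322.RV

open MeasureTheory ProbabilityTheory InformationTheory in
theorem Vale.Agent.Results.P322.RandomVariables.result {Ω : Type*} [MeasurableSpace Ω]
    (P : Measure Ω) [IsProbabilityMeasure P] (n : ℕ) (hn : 1 ≤ n)
    (ε : ℝ) (h0 : 0 ≤ ε) (h1 : ε ≤ 1 / 2) (X Z : Fin n → Ω → ℤˣ)
    (hX : ∀ i, Measurable (X i)) (hZ : ∀ i, Measurable (Z i))
    (hind : iIndepFun (Sum.elim X Z) P)
    (hXu : ∀ i, P {ω | X i ω = -1} = 1 / 2)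
    (hZe : ∀ i, P {ω | Z i ω = -1} = ENNReal.ofReal ε)
    (f : (Fin n → ℤˣ) → ℤˣ) :
    klDiv (P.map fun ω => (f fun i => X i ω, fun i => X i ω * Z i ω))
        ((P.map fun ω => f fun i => X i ω).prod (P.map fun ω i => X i ω * Z i ω)) /
      ENNReal.ofReal (Real.log 2) ≤ ENNReal.ofReal (1 - Real.binEntropy ε / Real.log 2) :=
  Vale.Agent.P322.RV.main h0 h1 hn hX hZ hind
    (fun i => by rw [hXu i]; simp [ENNReal.ofReal_div_of_pos]) hZe f
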